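import Mathlib

open Finset

namespace Vale.Agent.P194

variable {G R ι : Type*} [Group G] [Ring R] [Fintype ι]

def act (A : Matrix ι ι (MonoidAlgebra R G)) (f : G → ι → R) : G → ι → R :=
  fun x i => ∑ j, (A i j).coeff.sum fun g r => r * f (g⁻¹ * x) j

lemma act_add (A : Matrix ι ι (MonoidAlgebra R G)) (f f' : G → ι → R) :
    act A (f + f') = act A f + act A f' := by
  funext x i
  simp only [act, Pi.add_apply, mul_add]
  rw [← Finset.sum_add_distrib]
  refine Finset.sum_congr rfl fun j _ => ?_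
  rw [← Finsupp.sum_add]

lemma act_zero (A : Matrix ι ι (MonoidAlgebra R G)) : act A (0 : G → ι → R) = 0 := by
  funext x i
  simp [act]

lemma act_translate (A : Matrix ι ι (MonoidAlgebra R G)) (f : G → ι → R) (τ : G) :
    act A (fun x => f (x * τ)) = fun x => act A f (x * τ) := by
  funext x i
  simp only [act, mul_assoc]

def Good (A : Matrix ι ι (MonoidAlgebra R G)) (S : Finset G) (L : Subgroup G) : Prop :=
  ∀ f : G → ι → R, (∀ g, ∀ h ∈ L, f (g * h) = f g) →
    (∀ g, f g ≠ 0 → ∃ s ∈ S, s⁻¹ * g ∈ L) → act A f = 0 → f = 0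

def suppA [DecidableEq G] (A : Matrix ι ι (MonoidAlgebra R G)) : Finset G :=
  (Finset.univ : Finset (ι × ι)).biUnion fun ij => (A ij.1 ij.2).coeff.support

lemma mem_suppA [DecidableEq G] {A : Matrix ι ι (MonoidAlgebra R G)} {i j : ι} {g : G}
    (hg : g ∈ (A i j).coeff.support) : g ∈ suppA A := by
  unfold suppA
  rw [Finset.mem_biUnion]
  exact ⟨(i, j), Finset.mem_univ _, hg⟩

def tset [DecidableEq G] (A : Matrix ι ι (MonoidAlgebra R G)) (S : Finset G) : Finset G :=
  S ∪ (suppA A ×ˢ S).image fun gs => gs.1 * gs.2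

def core (T : Finset G) (L : Subgroup G) : Subgroup G :=
  Subgroup.closure {x | x ∈ L ∧ ∃ t ∈ T, ∃ t' ∈ T, x = t⁻¹ * t'}

lemma core_le (T : Finset G) (L : Subgroup G) : core T L ≤ L := by
  unfold core
  rw [Subgroup.closure_le]
  intro x hx
  exact hx.1

lemma mem_core {T : Finset G} {L : Subgroup G} {t t' : G} (ht : t ∈ T) (ht' : t' ∈ T)
    (h : t⁻¹ * t' ∈ L) : t⁻¹ * t' ∈ core T L :=
  Subgroup.subset_closure ⟨h, t, ht, t', ht', rfl⟩

lemma core_fg [DecidableEq G] (T : Finset G) (L : Subgroup G) : (core T L).FG := by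
  classical
  refine ⟨((T ×ˢ T).image fun p => p.1⁻¹ * p.2).filter (· ∈ L), ?_⟩
  unfold core
  congr 1
  ext x
  simp only [Finset.coe_filter, Finset.mem_image, Finset.mem_product, Prod.exists,
    Set.mem_ofPred_eq]
  constructor
  · rintro ⟨⟨a, b, ⟨ha, hb⟩, rfl⟩, hL⟩
    exact ⟨hL, a, ha, b, hb, rfl⟩
  · rintro ⟨hL, a, ha, b, hb, rfl⟩
    exact ⟨⟨a, b, ⟨ha, hb⟩, rfl⟩, hL⟩

lemma good_core [DecidableEq G] (A : Matrix ι ι (MonoidAlgebra R G)) (S : Finset G)
    (L : Subgroup G) (h : Good A S L) : Good A S (core (tset A S) L) := by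
  classical
  intro f hinv hsupp hact
  set L' := core (tset A S) L with hL'
  have hST : ∀ s ∈ S, s ∈ tset A S := fun s hs => Finset.mem_union_left _ hs
  have hAT : ∀ g ∈ suppA A, ∀ s ∈ S, g * s ∈ tset A S := fun g hg s hs =>
    Finset.mem_union_right _ (Finset.mem_image.2 ⟨(g, s), Finset.mem_product.2 ⟨hg, hs⟩, rfl⟩)
  let F : G → ι → R := fun g => if hg : ∃ s ∈ S, s⁻¹ * g ∈ L then f (Classical.choose hg) else 0
  have hF : ∀ g s, s ∈ S → s⁻¹ * g ∈ L → F g = f s := by
    intro g s hs hsg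
    have hg : ∃ s ∈ S, s⁻¹ * g ∈ L := ⟨s, hs, hsg⟩
    have e1 : F g = f (Classical.choose hg) := by simp only [F, dif_pos hg]
    obtain ⟨h1, h2⟩ := Classical.choose_spec hg
    set s' := Classical.choose hg with hs'
    rw [e1]
    have h3 : s⁻¹ * s' ∈ L := by
      have := L.mul_mem hsg (L.inv_mem h2)
      have e : s⁻¹ * g * (s'⁻¹ * g)⁻¹ = s⁻¹ * s' := by group
      rwa [e] at this
    have h4 : s⁻¹ * s' ∈ L' := mem_core (hST s hs) (hST s' h1) h3
    have := hinv s (s⁻¹ * s') h4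
    rw [← this]
    congr 1
    group
  have hF0 : ∀ g, (¬ ∃ s ∈ S, s⁻¹ * g ∈ L) → F g = 0 := by
    intro g hg
    simp only [F, dif_neg hg]
  have hFinv : ∀ g, ∀ h ∈ L, F (g * h) = F g := by
    intro g h hh
    by_cases hg : ∃ s ∈ S, s⁻¹ * g ∈ L
    · obtain ⟨s, hs, hsg⟩ := hg
      rw [hF g s hs hsg, hF (g * h) s hs (by rw [← mul_assoc]; exact L.mul_mem hsg hh)]
    · rw [hF0 g hg, hF0]
      rintro ⟨s, hs, hsg⟩
      apply hg
      refine ⟨s, hs, ?_⟩
      have := L.mul_mem hsg (L.inv_mem hh)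
      have e : s⁻¹ * (g * h) * h⁻¹ = s⁻¹ * g := by group
      rwa [e] at this
  have hFsupp : ∀ g, F g ≠ 0 → ∃ s ∈ S, s⁻¹ * g ∈ L := by
    intro g hg
    by_contra hcon
    exact hg (hF0 g hcon)
  have key : ∀ t ∈ tset A S, ∀ g ∈ suppA A, F (g⁻¹ * t) = f (g⁻¹ * t) := by
    intro t ht g hg
    by_cases hgt : ∃ s ∈ S, s⁻¹ * (g⁻¹ * t) ∈ L
    · obtain ⟨s, hs, hsL⟩ := hgt
      rw [hF _ s hs hsL]
      have e : (g * s)⁻¹ * t = s⁻¹ * (g⁻¹ * t) := by group
      have h1 : (g * s)⁻¹ * t ∈ L' := mem_core (hAT g hg s hs) ht (by rw [e]; exact hsL)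
      have := hinv s _ h1
      rw [← this]
      congr 1
      group
    · rw [hF0 _ hgt]
      by_contra hne
      obtain ⟨s, hs, hsL⟩ := hsupp _ (Ne.symm hne)
      exact hgt ⟨s, hs, core_le _ _ hsL⟩
  have hFact : act A F = 0 := by
    funext x
    by_cases hx : ∃ g ∈ suppA A, F (g⁻¹ * x) ≠ 0
    · obtain ⟨g0, hg0, hne⟩ := hx
      obtain ⟨s0, hs0, hL0⟩ := hFsupp _ hne
      have ht : g0 * s0 ∈ tset A S := hAT g0 hg0 s0 hs0
      have hx' : act A F x = act A F (g0 * s0) := by
        funext i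
        simp only [act]
        refine Finset.sum_congr rfl fun j _ => ?_
        refine Finsupp.sum_congr fun g _ => ?_
        have e : g⁻¹ * x = (g⁻¹ * (g0 * s0)) * (s0⁻¹ * (g0⁻¹ * x)) := by group
        rw [e, hFinv _ _ hL0]
      have hx'' : act A F (g0 * s0) = act A f (g0 * s0) := by
        funext i
        simp only [act]
        refine Finset.sum_congr rfl fun j _ => ?_
        refine Finsupp.sum_congr fun g hg => ?_
        rw [key _ ht g (mem_suppA hg)]
      rw [hx', hx'', hact]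
      rfl
    · push Not at hx
      funext i
      simp only [act, Pi.zero_apply]
      refine Finset.sum_eq_zero fun j _ => ?_
      refine Finset.sum_eq_zero fun g hg => ?_
      have e := hx g (mem_suppA hg)
      change (A i j).coeff g * F (g⁻¹ * x) j = 0
      rw [e]
      simp
  have hFz : F = 0 := h F hFinv hFsupp hFact
  funext g
  by_contra hne
  obtain ⟨s, hs, hsL⟩ := hsupp g hne
  have h1 : f g = f s := by
    have := hinv s _ hsL
    rw [← this]
    congr 1
    group
  have h2 : F g = f s := hF g s hs (core_le _ _ hsL)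
  apply hne
  rw [h1, ← h2, hFz]


section pstep

variable {p : ℕ} (hp : p.Prime) (hR : ∀ r : R, (p : ℕ) • r = 0)

include hp hR in
lemma iter_exists (T : AddMonoid.End (G → ι → R)) (f : G → ι → R)
    (hT : (T ^ p) f = f) : ((T - 1) ^ p) f = 0 := by
  have hc : Commute (T - 1) (1 : AddMonoid.End (G → ι → R)) := Commute.one_right _
  obtain ⟨r, hr⟩ := hc.exists_add_pow_prime_eq hp
  have e1 : (T - 1) ^ p = T ^ p - 1 - (p : AddMonoid.End (G → ι → R)) * (T - 1) * 1 * r := by
    have : T - 1 + 1 = T := by abel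
    rw [this] at hr
    rw [hr, one_pow]
    abel
  have e2 : ∀ u : G → ι → R, (p : AddMonoid.End (G → ι → R)) u = 0 := by
    intro u
    rw [AddMonoid.End.natCast_apply]
    funext x i
    simp only [Pi.smul_apply, Pi.zero_apply]
    exact hR _
  have e3 : (T ^ p - 1 - (p : AddMonoid.End (G → ι → R)) * (T - 1) * 1 * r) f =
      (T ^ p) f - f - (p : AddMonoid.End (G → ι → R)) (((T - 1) * 1 * r) f) := by
    simp only [mul_assoc]
    rfl
  rw [e1, e3, hT, e2]
  simp

def trans (τ : G) : AddMonoid.End (G → ι → R) where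
  toFun f := fun x => f (x * τ)
  map_zero' := rfl
  map_add' _ _ := rfl

lemma trans_apply (τ : G) (f : G → ι → R) (x : G) : trans τ f x = f (x * τ) := rfl

lemma trans_pow (τ : G) (k : ℕ) (f : G → ι → R) (x : G) :
    (trans τ ^ k) f x = f (x * τ ^ k) := by
  induction k generalizing x with
  | zero => simp
  | succ k ih =>
    rw [pow_succ']
    change trans τ ((trans τ ^ k) f) x = _
    rw [trans_apply, ih, mul_assoc, ← pow_succ']

lemma exists_pow_eq {p : ℕ} [Fact p.Prime] (a b : Multiplicative (ZMod p)) (ha : a ≠ 1) :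
    ∃ k : ℕ, b = a ^ k := by
  have ha' : Multiplicative.toAdd a ≠ 0 := by
    intro h
    exact ha (by rw [← ofAdd_toAdd a, h, ofAdd_zero])
  refine ⟨(Multiplicative.toAdd b * (Multiplicative.toAdd a)⁻¹).val, ?_⟩
  apply Multiplicative.toAdd.injective
  rw [toAdd_pow, nsmul_eq_mul, ZMod.natCast_val, ZMod.cast_id', id, mul_assoc,
    inv_mul_cancel₀ ha', mul_one]

include hR in
lemma good_pstep [Fact p.Prime] (A : Matrix ι ι (MonoidAlgebra R G)) (S : Finset G)
    (L : Subgroup G) (h : Good A S L) (χ : L →* Multiplicative (ZMod p)) (τ : L)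
    (hτ : χ τ ≠ 1) : Good A S (χ.ker.map L.subtype) := by
  classical
  intro f hinv hsupp hact
  set L1 := χ.ker.map L.subtype with hL1
  have hmem : ∀ (x : G) (hx : x ∈ L), χ ⟨x, hx⟩ = 1 → x ∈ L1 := by
    intro x hx h1
    exact Subgroup.mem_map.2 ⟨⟨x, hx⟩, h1, rfl⟩
  have hmem' : ∀ x ∈ L1, ∃ hx : x ∈ L, χ ⟨x, hx⟩ = 1 := by
    intro x hx
    obtain ⟨y, hy, rfl⟩ := Subgroup.mem_map.1 hx
    exact ⟨y.2, hy⟩
  have hL1L : L1 ≤ L := fun x hx => (hmem' x hx).1
  have hpp : p.Prime := Fact.out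
  have hTp : (trans (τ : G) ^ p) f = f := by
    funext x
    rw [trans_pow]
    apply hinv
    have hx : (τ : G) ^ p ∈ L := L.pow_mem τ.2 p
    refine hmem _ hx ?_
    have e : (⟨(τ : G) ^ p, hx⟩ : L) = τ ^ p := rfl
    rw [e, map_pow]
    apply Multiplicative.toAdd.injective
    rw [toAdd_pow, nsmul_eq_mul]
    simp
  let D : AddMonoid.End (G → ι → R) := trans (τ : G) - 1
  have hDapp : ∀ (u : G → ι → R) (x : G), D u x = u (x * (τ : G)) - u x := fun u x => rfl
  have hex : ∃ k : ℕ, (D ^ k) f = 0 := ⟨p, iter_exists hpp hR _ _ hTp⟩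
  by_contra hf
  have hn0 : Nat.find hex ≠ 0 := by
    intro h0
    have := Nat.find_spec hex
    rw [h0] at this
    exact hf this
  obtain ⟨m, hm⟩ := Nat.exists_eq_succ_of_ne_zero hn0
  set u := (D ^ m) f with hu
  have hune : u ≠ 0 := Nat.find_min hex (by omega)
  have huT : D u = 0 := by
    have := Nat.find_spec hex
    rw [hm, Nat.succ_eq_add_one, pow_succ'] at this
    exact this
  have hP : ∀ k : ℕ, (∀ g, ∀ h ∈ L1, (D ^ k) f (g * h) =
      (D ^ k) f g) ∧ (∀ g, (D ^ k) f g ≠ 0 →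
      ∃ s ∈ S, s⁻¹ * g ∈ L) ∧ act A ((D ^ k) f) = 0 := by
    intro k
    induction k with
    | zero =>
      refine ⟨hinv, fun g hg => ?_, hact⟩
      obtain ⟨s, hs, h1⟩ := hsupp g hg
      exact ⟨s, hs, hL1L h1⟩
    | succ k ih =>
      set w := (D ^ k) f with hw
      obtain ⟨i1, i2, i3⟩ := ih
      have e : (D ^ (k + 1)) f = (trans (τ : G)) w - w := by
        rw [pow_succ']
        rfl
      rw [e]
      refine ⟨?_, ?_, ?_⟩
      · intro g h hh
        simp only [Pi.sub_apply, trans_apply]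
        rw [i1 g h hh]
        have : g * h * (τ : G) = g * (τ : G) * ((τ : G)⁻¹ * h * (τ : G)) := by group
        rw [this, i1 _ _ ?_]
        obtain ⟨hx, hx1⟩ := hmem' h hh
        have hy : (τ : G)⁻¹ * h * (τ : G) ∈ L := L.mul_mem (L.mul_mem (L.inv_mem τ.2) hx) τ.2
        refine hmem _ hy ?_
        have e2 : (⟨(τ : G)⁻¹ * h * (τ : G), hy⟩ : L) = τ⁻¹ * ⟨h, hx⟩ * τ := rfl
        rw [e2, map_mul, map_mul, hx1, map_inv]
        simp
      · intro g hg
        simp only [Pi.sub_apply, trans_apply] at hg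
        by_cases hwg : w g = 0
        · have : w (g * (τ : G)) ≠ 0 := by
            intro h0
            apply hg
            rw [h0, hwg, sub_zero]
          obtain ⟨s, hs, hsL⟩ := i2 _ this
          refine ⟨s, hs, ?_⟩
          have := L.mul_mem hsL (L.inv_mem τ.2)
          have e3 : s⁻¹ * (g * (τ : G)) * (τ : G)⁻¹ = s⁻¹ * g := by group
          rwa [e3] at this
        · exact i2 g hwg
      · have e3 : act A (trans (τ : G) w) = 0 := by
          have := act_translate A w (τ : G)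
          change act A (fun x => w (x * (τ : G))) = 0
          rw [this, i3]
          rfl
        have e4 := act_add A (trans (τ : G) w - w) w
        rw [sub_add_cancel, e3, i3, add_zero] at e4
        exact e4.symm
  obtain ⟨j1, j2, j3⟩ := hP m
  rw [← hu] at j1 j2 j3
  have huinv : ∀ g, ∀ h ∈ L, u (g * h) = u g := by
    intro g h hh
    obtain ⟨k, hk⟩ := exists_pow_eq (χ τ) (χ ⟨h, hh⟩) hτ
    have hx : ((τ : G) ^ k)⁻¹ * h ∈ L := L.mul_mem (L.inv_mem (L.pow_mem τ.2 k)) hh
    have h1 : ((τ : G) ^ k)⁻¹ * h ∈ L1 := by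
      refine hmem _ hx ?_
      have e2 : (⟨((τ : G) ^ k)⁻¹ * h, hx⟩ : L) = (τ ^ k)⁻¹ * ⟨h, hh⟩ := rfl
      rw [e2, map_mul, map_inv, map_pow, hk]
      simp
    have hstep : ∀ x, u (x * (τ : G)) = u x := by
      intro x
      have := congrFun huT x
      have e5 : D u x = u (x * (τ : G)) - u x := rfl
      rw [e5] at this
      exact sub_eq_zero.1 this
    have hpow : ∀ (k : ℕ) x, u (x * (τ : G) ^ k) = u x := by
      intro k
      induction k with
      | zero => intro x; simp
      | succ k ih =>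
        intro x
        rw [pow_succ, ← mul_assoc, hstep, ih]
    have e6 : g * h = (g * (τ : G) ^ k) * (((τ : G) ^ k)⁻¹ * h) := by group
    rw [e6, j1 _ _ h1, hpow]
  exact hune (h u huinv j2 j3)

end pstep

lemma good_bot {p : ℕ} [Fact p.Prime] (hR : ∀ r : R, (p : ℕ) • r = 0)
    (A : Matrix ι ι (MonoidAlgebra R G)) (S : Finset G) (N : Subgroup G)
    (hN : ∀ H : Subgroup G, H ≤ N → H.FG → H ≠ ⊥ → ∃ χ : H →* Multiplicative (ZMod p), χ ≠ 1)
    (h : Good A S N) : Good A S ⊥ := by
  classical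
  let T := tset A S
  suffices H : ∀ (m : ℕ) (L : Subgroup G), L ≤ N →
      (((T ×ˢ T).filter fun q => q.1⁻¹ * q.2 ∈ L).card = m) → Good A S L → Good A S ⊥ from
    H _ N le_rfl rfl h
  intro m
  induction m using Nat.strong_induction_on with
  | _ m ih =>
    intro L hLN hm hL
    have hcore := good_core A S L hL
    by_cases hbot : core T L = ⊥
    · rw [← hbot]
      exact hcore
    · have hcN : core T L ≤ N := (core_le T L).trans hLN
      obtain ⟨χ, hχ⟩ := hN (core T L) hcN (core_fg T L) hbot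
      have hτ : ∃ τ : core T L, χ τ ≠ 1 := by
        by_contra hcon
        push Not at hcon
        exact hχ (MonoidHom.ext hcon)
      obtain ⟨τ, hτ⟩ := hτ
      have hL1 := good_pstep hR A S (core T L) hcore χ τ hτ
      set L1 := χ.ker.map (core T L).subtype with hL1def
      have hL1le : L1 ≤ core T L := by
        intro x hx
        obtain ⟨y, _, rfl⟩ := Subgroup.mem_map.1 hx
        exact y.2
      have hgen : ∃ t ∈ T, ∃ t' ∈ T, t⁻¹ * t' ∈ L ∧ t⁻¹ * t' ∉ L1 := by
        by_contra hcon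
        push Not at hcon
        have hle : core T L ≤ L1 := by
          unfold core
          rw [Subgroup.closure_le]
          rintro x ⟨hxL, t, ht, t', ht', rfl⟩
          exact hcon t ht t' ht' hxL
        have hτ1 : (τ : G) ∈ L1 := hle τ.2
        obtain ⟨y, hy, hy'⟩ := Subgroup.mem_map.1 hτ1
        have : y = τ := Subtype.ext hy'
        rw [this] at hy
        exact hτ hy
      obtain ⟨t, ht, t', ht', hin, hout⟩ := hgen
      refine ih _ ?_ L1 (hL1le.trans hcN) rfl hL1
      rw [← hm]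
      apply Finset.card_lt_card
      rw [Finset.ssubset_iff_of_subset]
      · refine ⟨(t, t'), ?_, ?_⟩
        · exact Finset.mem_filter.2 ⟨Finset.mem_product.2 ⟨ht, ht'⟩, hin⟩
        · intro hmem
          exact hout (Finset.mem_filter.1 hmem).2
      · intro q hq
        obtain ⟨h1, h2⟩ := Finset.mem_filter.1 hq
        exact Finset.mem_filter.2 ⟨h1, core_le T L (hL1le h2)⟩

end Vale.Agent.P194
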