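import Mathlib

open Finset

namespace Vale.Agent.P194

def IsSofic (G : Type*) [Group G] : Prop :=
  ∀ (F : Finset G) (ε : ℝ), 0 < ε → ∃ (n : ℕ) (σ : G → Equiv.Perm (Fin n)), 0 < n ∧
    (∀ g ∈ F, ∀ h ∈ F,
      ((Finset.univ.filter fun x => σ (g * h) x ≠ σ g (σ h x)).card : ℝ) ≤ ε * n) ∧
    (∀ g ∈ F, g ≠ 1 → ((Finset.univ.filter fun x => σ g x = x).card : ℝ) ≤ ε * n)

section linalg

variable {K V : Type*} [Field K] [AddCommGroup V] [Module K V] [FiniteDimensional K V]

lemma finrank_ker_le (U W : V →ₗ[K] V) :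
    Module.finrank K (LinearMap.ker (U ∘ₗ W - LinearMap.id)) ≤
      Module.finrank K (LinearMap.ker (W ∘ₗ U - LinearMap.id)) := by
  have hmem : ∀ v ∈ LinearMap.ker (U ∘ₗ W - LinearMap.id),
      W v ∈ LinearMap.ker (W ∘ₗ U - LinearMap.id) := by
    intro v hv
    rw [LinearMap.mem_ker] at hv ⊢
    have h1 : U (W v) = v := sub_eq_zero.1 hv
    change W (U (W v)) - W v = 0
    rw [h1, sub_self]
  refine LinearMap.finrank_le_finrank_of_injective
    (f := (W.restrict hmem : LinearMap.ker (U ∘ₗ W - LinearMap.id) →ₗ[K]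
      LinearMap.ker (W ∘ₗ U - LinearMap.id))) ?_
  intro v w hvw
  have h1 : W (v : V) = W (w : V) := congrArg Subtype.val hvw
  have hv : U (W (v : V)) = v := sub_eq_zero.1 (LinearMap.mem_ker.1 v.2)
  have hw : U (W (w : V)) = w := sub_eq_zero.1 (LinearMap.mem_ker.1 w.2)
  apply Subtype.ext
  rw [← hv, ← hw, h1]

lemma card_le_of_approx {X ι : Type*} [Fintype X] [Fintype ι] [DecidableEq X]
    (U W : (X → ι → K) →ₗ[K] (X → ι → K)) (Bad : Finset X) (Y : Finset X) (i0 : ι)
    (h1 : ∀ f x, x ∉ Bad → U (W f) x = f x)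
    (h2 : ∀ v : Y → K, ∃ f : X → ι → K, ∀ x : Y, W (U f) x i0 - f x i0 = v x) :
    Y.card ≤ Bad.card * Fintype.card ι := by
  classical
  let Q : (X → ι → K) →ₗ[K] (Bad → ι → K) :=
    { toFun := fun f x => (U (W f) - f) x
      map_add' := by
        intro f g
        funext x i
        simp only [map_add, Pi.sub_apply, Pi.add_apply]
        ring
      map_smul' := by
        intro c f
        funext x i
        simp only [map_smul, Pi.sub_apply, Pi.smul_apply, smul_eq_mul, RingHom.id_apply]
        ring }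
  let P : (X → ι → K) →ₗ[K] (Y → K) :=
    { toFun := fun f x => W (U f) x i0 - f x i0
      map_add' := by
        intro f g
        funext x
        simp only [map_add, Pi.add_apply]
        ring
      map_smul' := by
        intro c f
        funext x
        simp only [map_smul, Pi.smul_apply, smul_eq_mul, RingHom.id_apply]
        ring }
  have hQ := LinearMap.finrank_range_add_finrank_ker Q
  have hP := LinearMap.finrank_range_add_finrank_ker P
  have hQr : Module.finrank K (LinearMap.range Q) ≤ Bad.card * Fintype.card ι := by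
    refine (Submodule.finrank_le _).trans ?_
    rw [Module.finrank_pi_fintype]
    simp
  have hPr : Module.finrank K (LinearMap.range P) = Y.card := by
    have : LinearMap.range P = ⊤ := by
      rw [LinearMap.range_eq_top]
      intro v
      obtain ⟨f, hf⟩ := h2 v
      exact ⟨f, funext hf⟩
    rw [this, finrank_top]
    simp
  have hk1 : LinearMap.ker Q ≤ LinearMap.ker (U ∘ₗ W - LinearMap.id) := by
    intro f hf
    rw [LinearMap.mem_ker] at hf ⊢
    funext x
    by_cases hx : x ∈ Bad
    · exact congrFun hf ⟨x, hx⟩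
    · change U (W f) x - f x = 0
      rw [h1 f x hx, sub_self]
  have hk2 : LinearMap.ker (W ∘ₗ U - LinearMap.id) ≤ LinearMap.ker P := by
    intro f hf
    rw [LinearMap.mem_ker] at hf ⊢
    funext x
    exact congrFun (congrFun hf x) i0
  have a1 := Submodule.finrank_mono hk1
  have a2 := Submodule.finrank_mono hk2
  have a3 := finrank_ker_le U W
  omega

end linalg

section ev

variable {G R : Type*} [Group G] [Ring R]

noncomputable def ev (φ : G → R) : MonoidAlgebra R G →+ R where
  toFun a := a.coeff.sum fun g r => r * φ g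
  map_zero' := by simp
  map_add' a b := by
    rw [MonoidAlgebra.coeff_add, Finsupp.sum_add_index']
    · intro g; simp
    · intro g r s; rw [add_mul]

lemma ev_apply (φ : G → R) (a : MonoidAlgebra R G) :
    ev φ a = a.coeff.sum fun g r => r * φ g := rfl

lemma ev_single (φ : G → R) (g : G) (r : R) : ev φ (MonoidAlgebra.single g r) = r * φ g := by
  rw [ev_apply, MonoidAlgebra.coeff_single, Finsupp.sum_single_index]
  simp

lemma ev_congr {φ ψ : G → R} {a : MonoidAlgebra R G}
    (h : ∀ g ∈ a.coeff.support, φ g = ψ g) : ev φ a = ev ψ a := by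
  rw [ev_apply, ev_apply]
  exact Finsupp.sum_congr fun g hg => by rw [h g hg]

lemma ev_mul (φ : G → R) (a b : MonoidAlgebra R G) :
    ev φ (a * b) = ev (fun g => ev (fun h => φ (g * h)) b) a := by
  rw [MonoidAlgebra.mul_def, map_finsuppSum, ev_apply]
  refine Finsupp.sum_congr fun g _ => ?_
  rw [map_finsuppSum, ev_apply, Finsupp.mul_sum]
  refine Finsupp.sum_congr fun h _ => ?_
  rw [ev_single, mul_assoc]

lemma ev_sum_fun {ι : Type*} (s : Finset ι) (φ : ι → G → R) (a : MonoidAlgebra R G) :
    ev (fun g => ∑ k ∈ s, φ k g) a = ∑ k ∈ s, ev (φ k) a := by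
  simp only [ev_apply, Finsupp.sum, Finset.mul_sum]
  rw [Finset.sum_comm]

end ev

section sofic

variable {G K : Type*} [Group G] [Field K] {ι X : Type*} [Fintype ι] [Fintype X]

noncomputable def sact (σ : G → Equiv.Perm X) (A : Matrix ι ι (MonoidAlgebra K G)) :
    (X → ι → K) →ₗ[K] (X → ι → K) where
  toFun f := fun x i => ∑ j, ev (fun g => f (σ g⁻¹ x) j) (A i j)
  map_add' f f' := by
    funext x i
    simp only [Pi.add_apply, ev_apply, mul_add]
    rw [← Finset.sum_add_distrib]
    refine Finset.sum_congr rfl fun j _ => ?_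
    rw [← Finsupp.sum_add]
  map_smul' c f := by
    funext x i
    simp only [Pi.smul_apply, smul_eq_mul, ev_apply, RingHom.id_apply, Finset.mul_sum,
      Finsupp.mul_sum]
    refine Finset.sum_congr rfl fun j _ => ?_
    refine Finsupp.sum_congr fun g _ => ?_
    ring

lemma sact_apply (σ : G → Equiv.Perm X) (A : Matrix ι ι (MonoidAlgebra K G))
    (f : X → ι → K) (x : X) (i : ι) :
    sact σ A f x i = ∑ j, ev (fun g => f (σ g⁻¹ x) j) (A i j) := rfl

lemma sact_mul (σ : G → Equiv.Perm X) (A B : Matrix ι ι (MonoidAlgebra K G))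
    (f : X → ι → K) (x : X)
    (hx : ∀ i j k, ∀ g ∈ (A i j).coeff.support, ∀ h ∈ (B j k).coeff.support,
      σ (h⁻¹ * g⁻¹) x = σ h⁻¹ (σ g⁻¹ x)) :
    sact σ A (sact σ B f) x = sact σ (A * B) f x := by
  funext i
  rw [sact_apply, sact_apply]
  have h1 : ∀ j, ev (fun g => sact σ B f (σ g⁻¹ x) j) (A i j) =
      ∑ k, ev (fun u => f (σ u⁻¹ x) k) (A i j * B j k) := by
    intro j
    simp only [sact_apply, ev_sum_fun]
    refine Finset.sum_congr rfl fun k _ => ?_
    rw [ev_mul]
    refine ev_congr fun g hg => ?_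
    refine ev_congr fun h hh => ?_
    rw [mul_inv_rev, hx i j k g hg h hh]
  simp only [h1]
  rw [Finset.sum_comm]
  refine Finset.sum_congr rfl fun k _ => ?_
  rw [Matrix.mul_apply, map_sum]

lemma sact_one [DecidableEq ι] (σ : G → Equiv.Perm X) (f : X → ι → K) (x : X)
    (hx : σ 1 x = x) : sact σ (1 : Matrix ι ι (MonoidAlgebra K G)) f x = f x := by
  funext i
  rw [sact_apply, Finset.sum_eq_single i]
  · rw [Matrix.one_apply_eq, MonoidAlgebra.one_def, ev_single, inv_one, hx, one_mul]
  · intro j _ hj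
    rw [Matrix.one_apply_ne (Ne.symm hj), map_zero]
  · intro h
    exact absurd (Finset.mem_univ _) h

end sofic

end Vale.Agent.P194
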