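import Mathlib
import Vale.Agent.P194.Conserv
import Vale.Agent.P194.Sofic

open Finset

namespace Vale.Agent.P194

def IsSurjunctive (G : Type*) [Group G] : Prop :=
  ∀ (k : ℕ) (M : Finset G) (μ : (M → Fin k) → Fin k),
    Function.Injective (fun (x : G → Fin k) (g : G) => μ fun m => x (g * m)) →
    Function.Surjective (fun (x : G → Fin k) (g : G) => μ fun m => x (g * m))

section act

variable {G R ι : Type*} [Group G] [Ring R] [Fintype ι]

lemma act_eq (A : Matrix ι ι (MonoidAlgebra R G)) (f : G → ι → R) (x : G) (i : ι) :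
    act A f x i = ∑ j, ev (fun g => f (g⁻¹ * x) j) (A i j) := rfl

lemma act_mul (A B : Matrix ι ι (MonoidAlgebra R G)) (f : G → ι → R) :
    act A (act B f) = act (A * B) f := by
  funext x i
  rw [act_eq, act_eq]
  have h1 : ∀ j, ev (fun g => act B f (g⁻¹ * x) j) (A i j) =
      ∑ k, ev (fun u => f (u⁻¹ * x) k) (A i j * B j k) := by
    intro j
    simp only [act_eq, ev_sum_fun]
    refine Finset.sum_congr rfl fun k _ => ?_
    rw [ev_mul]
    refine ev_congr fun g hg => ?_
    refine ev_congr fun h hh => ?_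
    rw [mul_inv_rev, mul_assoc]
  simp only [h1]
  rw [Finset.sum_comm]
  refine Finset.sum_congr rfl fun k _ => ?_
  rw [Matrix.mul_apply, map_sum]

lemma act_one [DecidableEq ι] (f : G → ι → R) :
    act (1 : Matrix ι ι (MonoidAlgebra R G)) f = f := by
  funext x i
  rw [act_eq, Finset.sum_eq_single i]
  · rw [Matrix.one_apply_eq, MonoidAlgebra.one_def, ev_single, inv_one, one_mul, one_mul]
  · intro j _ hj
    rw [Matrix.one_apply_ne (Ne.symm hj), map_zero]
  · intro h
    exact absurd (Finset.mem_univ _) h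

lemma act_delta [DecidableEq ι] [DecidableEq G] (C : Matrix ι ι (MonoidAlgebra R G)) (k : ι)
    (x : G) (i : ι) :
    act C (fun y j => if y = 1 ∧ j = k then (1 : R) else 0) x i = (C i k).coeff x := by
  rw [act_eq, Finset.sum_eq_single k]
  · rw [ev_apply, Finsupp.sum_eq_single x]
    · simp
    · intro g _ hg
      have : ¬ (g⁻¹ * x = 1 ∧ k = k) := by
        rintro ⟨h, _⟩
        exact hg (inv_mul_eq_one.1 h)
      rw [if_neg this, mul_zero]
    · intro _; simp
  · intro j _ hj
    rw [ev_apply]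
    have : ∀ g : G, ¬ (g⁻¹ * x = 1 ∧ j = k) := fun g h => hj h.2
    simp [this]
  · intro h
    exact absurd (Finset.mem_univ _) h

lemma eq_one_of_act [DecidableEq ι] (C : Matrix ι ι (MonoidAlgebra R G))
    (h : ∀ f, act C f = f) : C = 1 := by
  classical
  refine Matrix.ext fun i k => ?_
  ext x
  rw [← act_delta C k x i, h, ← act_delta (1 : Matrix ι ι (MonoidAlgebra R G)) k x i, act_one]

end act

theorem surjunctive_finite {G F : Type*} [Group G] [Field F] [Finite F] (hG : IsSurjunctive G)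
    {ι : Type*} [Fintype ι] [DecidableEq ι]
    (A B : Matrix ι ι (MonoidAlgebra F G)) (hAB : A * B = 1) : B * A = 1 := by
  classical
  have hfin : Finite (ι → F) := inferInstance
  obtain ⟨k, ⟨e⟩⟩ := Finite.exists_equiv_fin (ι → F)
  let M : Finset G := suppA B
  let μ : (M → Fin k) → Fin k := fun u =>
    e fun i => ∑ j, ev (fun g => if h : g ∈ M then e.symm (u ⟨g, h⟩) j else 0) (B i j)
  have hμ : ∀ (x : G → Fin k) (g : G), (μ fun m => x (g * m)) =
      e (act B (fun y => e.symm (x y⁻¹)) g⁻¹) := by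
    intro x g
    simp only [μ]
    congr 1
    funext i
    rw [act_eq]
    refine Finset.sum_congr rfl fun j _ => ?_
    refine ev_congr fun m hm => ?_
    rw [dif_pos (mem_suppA hm), mul_inv_rev, inv_inv, inv_inv]
  have hinj : Function.Injective (fun (x : G → Fin k) (g : G) => μ fun m => x (g * m)) := by
    intro x y hxy
    have h1 : act B (fun z => e.symm (x z⁻¹)) = act B (fun z => e.symm (y z⁻¹)) := by
      funext z
      have := congrFun hxy z⁻¹
      simp only [hμ, inv_inv] at this
      exact e.injective this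
    have h2 := congrArg (act A) h1
    rw [act_mul, act_mul, hAB, act_one, act_one] at h2
    funext g
    have h3 := congrFun h2 g⁻¹
    simp only [inv_inv] at h3
    exact e.symm.injective h3
  have hsurj := hG k M μ hinj
  have hsurjB : ∀ f : G → ι → F, ∃ f', act B f' = f := by
    intro f
    obtain ⟨x, hx⟩ := hsurj (fun g => e (f g⁻¹))
    refine ⟨fun y => e.symm (x y⁻¹), ?_⟩
    funext z
    have := congrFun hx z⁻¹
    simp only [hμ, inv_inv] at this
    exact e.injective this
  refine eq_one_of_act _ fun f => ?_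
  obtain ⟨f', hf'⟩ := hsurjB f
  rw [← act_mul, ← hf', act_mul A B, hAB, act_one]

theorem surjunctive_dedekind {p : ℕ} [Fact p.Prime] {G K : Type*} [Group G] [Field K] [CharP K p]
    (hG : IsSurjunctive G) {ι : Type*} [Fintype ι] [DecidableEq ι]
    (A B : Matrix ι ι (MonoidAlgebra K G)) (hAB : A * B = 1) : B * A = 1 := by
  classical
  letI : Algebra (ZMod p) K := ZMod.algebra K p
  let s : Finset K := (Finset.univ : Finset (ι × ι)).biUnion fun ij =>
    (A ij.1 ij.2).coeff.support.image (A ij.1 ij.2).coeff ∪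
    (B ij.1 ij.2).coeff.support.image (B ij.1 ij.2).coeff
  let R0 : Subalgebra (ZMod p) K := Algebra.adjoin (ZMod p) (s : Set K)
  have hAs : ∀ i j g, (A i j).coeff g ∈ R0 := by
    intro i j g
    by_cases h : g ∈ (A i j).coeff.support
    · refine Algebra.subset_adjoin (Finset.mem_coe.2 (Finset.mem_biUnion.2
        ⟨(i, j), Finset.mem_univ _, Finset.mem_union_left _
          (Finset.mem_image.2 ⟨g, h, rfl⟩)⟩))
    · rw [Finsupp.notMem_support_iff.1 h]
      exact R0.zero_mem
  have hBs : ∀ i j g, (B i j).coeff g ∈ R0 := by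
    intro i j g
    by_cases h : g ∈ (B i j).coeff.support
    · refine Algebra.subset_adjoin (Finset.mem_coe.2 (Finset.mem_biUnion.2
        ⟨(i, j), Finset.mem_univ _, Finset.mem_union_right _
          (Finset.mem_image.2 ⟨g, h, rfl⟩)⟩))
    · rw [Finsupp.notMem_support_iff.1 h]
      exact R0.zero_mem
  have hft : Algebra.FiniteType (ZMod p) R0 :=
    (Subalgebra.fg_iff_finiteType R0).1 ⟨s, rfl⟩
  let inc : R0 →+* K := R0.val.toRingHom
  have hinc : Function.Injective inc := Subtype.val_injective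
  let Φ : MonoidAlgebra R0 G →+* MonoidAlgebra K G := MonoidAlgebra.mapRingHom G inc
  have hΦ : Function.Injective Φ := by
    intro a b hab
    ext g
    have := congrArg (fun c : MonoidAlgebra K G => c.coeff g) hab
    simp only [Φ, MonoidAlgebra.coeff_mapRingHom] at this
    exact congrArg Subtype.val (hinc this)
  let lift : (a : MonoidAlgebra K G) → (∀ g, a.coeff g ∈ R0) → MonoidAlgebra R0 G :=
    fun a ha => MonoidAlgebra.ofCoeff (Finsupp.onFinset a.coeff.support
      (fun g => (⟨a.coeff g, ha g⟩ : R0)) (by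
        intro g hg
        rw [Finsupp.mem_support_iff]
        intro h0
        exact hg (Subtype.ext h0)))
  have hlift : ∀ a ha, Φ (lift a ha) = a := by
    intro a ha
    ext g
    rw [MonoidAlgebra.coeff_mapRingHom]
    rfl
  let A0 : Matrix ι ι (MonoidAlgebra R0 G) := Matrix.of fun i j => lift (A i j) (hAs i j)
  let B0 : Matrix ι ι (MonoidAlgebra R0 G) := Matrix.of fun i j => lift (B i j) (hBs i j)
  have hA0 : A0.map Φ = A := Matrix.ext fun i j => hlift _ _
  have hB0 : B0.map Φ = B := Matrix.ext fun i j => hlift _ _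
  have hmapinj : ∀ C D : Matrix ι ι (MonoidAlgebra R0 G), C.map Φ = D.map Φ → C = D := by
    intro C D h
    refine Matrix.ext fun i j => hΦ ?_
    exact congrFun (congrFun h i) j
  have hone : (1 : Matrix ι ι (MonoidAlgebra R0 G)).map Φ = 1 :=
    Matrix.map_one Φ (map_zero Φ) (map_one Φ)
  have hAB0 : A0 * B0 = 1 := by
    apply hmapinj
    rw [Matrix.map_mul, hA0, hB0, hAB, hone]
  suffices hBA0 : B0 * A0 = 1 by
    rw [← hA0, ← hB0, ← Matrix.map_mul, hBA0, hone]
  by_contra hne
  have hE : ∃ i0 j0 g0, ((B0 * A0 - 1) i0 j0).coeff g0 ≠ 0 := by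
    by_contra hcon
    push Not at hcon
    apply hne
    rw [← sub_eq_zero]
    refine Matrix.ext fun i j => ?_
    ext g
    rw [hcon i j g]
    rfl
  obtain ⟨i0, j0, g0, hc⟩ := hE
  set c := ((B0 * A0 - 1) i0 j0).coeff g0 with hcdef
  have hJ : IsJacobsonRing R0 := isJacobsonRing_of_finiteType (A := ZMod p)
  have hrad : (⊥ : Ideal R0).jacobson = ⊥ :=
    hJ.out' ⊥ (Ideal.isPrime_bot.isRadical)
  have hcJ : c ∉ (⊥ : Ideal R0).jacobson := by
    rw [hrad]
    exact fun h => hc (Ideal.mem_bot.1 h)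
  have hm : ∃ m : Ideal R0, m.IsMaximal ∧ c ∉ m := by
    by_contra hcon
    push Not at hcon
    exact hcJ (Submodule.mem_sInf.2 fun J hJ' => hcon J hJ'.2)
  obtain ⟨m, hmax, hcm⟩ := hm
  letI : Field (R0 ⧸ m) := Ideal.Quotient.field m
  have hfin1 : Module.Finite (ZMod p) (R0 ⧸ m) :=
    finite_of_finite_type_of_isJacobsonRing (ZMod p) (R0 ⧸ m)
  have hfin2 : Finite (R0 ⧸ m) := Module.finite_of_finite (ZMod p)
  let Ψ : MonoidAlgebra R0 G →+* MonoidAlgebra (R0 ⧸ m) G :=
    MonoidAlgebra.mapRingHom G (Ideal.Quotient.mk m)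
  have h1 : A0.map Ψ * B0.map Ψ = 1 := by
    rw [← Matrix.map_mul, hAB0]
    exact Matrix.map_one Ψ (map_zero Ψ) (map_one Ψ)
  have h2 := surjunctive_finite hG _ _ h1
  rw [← Matrix.map_mul] at h2
  have h3 : (B0 * A0 - 1).map Ψ = 0 := by
    have : (B0 * A0 - 1).map Ψ = (B0 * A0).map Ψ - (1 : Matrix ι ι _).map Ψ :=
      Matrix.map_sub Ψ (map_sub Ψ) _ _
    rw [this, h2, Matrix.map_one Ψ (map_zero Ψ) (map_one Ψ), sub_self]
  have h4 := congrFun (congrFun h3 i0) j0
  have h5 : (Ψ ((B0 * A0 - 1) i0 j0)).coeff g0 = 0 := by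
    have : Ψ ((B0 * A0 - 1) i0 j0) = 0 := h4
    rw [this]
    rfl
  rw [MonoidAlgebra.coeff_mapRingHom] at h5
  exact hcm (Ideal.Quotient.eq_zero_iff_mem.1 h5)

end Vale.Agent.P194
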