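import Mathlib
import Vale.Agent.P194.Conserv
import Vale.Agent.P194.Sofic
import Vale.Agent.P194.Surj

open Finset

namespace Vale.Agent.P194

variable {G R ι : Type*} [Group G] [Ring R] [Fintype ι] (H : Subgroup G)

noncomputable def shiftMap (x y : G ⧸ H) : H → G := fun h => x.out * h * y.out⁻¹

lemma shiftMap_injective (x y : G ⧸ H) : Function.Injective (shiftMap H x y) := by
  intro h k hk
  unfold shiftMap at hk
  exact Subtype.ext (mul_left_cancel (mul_right_cancel hk))

noncomputable def entry (x y : G ⧸ H) : MonoidAlgebra R G →+ MonoidAlgebra R H :=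
  MonoidAlgebra.comapDomainAddMonoidHom (shiftMap H x y) (shiftMap_injective H x y)

lemma entry_single_self (x y : G ⧸ H) (k : H) (r : R) :
    entry H x y (MonoidAlgebra.single (shiftMap H x y k) r) = MonoidAlgebra.single k r :=
  MonoidAlgebra.comapDomain_single_map _ (shiftMap_injective H x y) _ _

lemma entry_single_of_ne (x y : G ⧸ H) (g : G) (r : R)
    (hg : g ∉ Set.range (shiftMap H x y)) : entry H x y (MonoidAlgebra.single g r) = 0 :=
  MonoidAlgebra.comapDomain_single_of_not_mem_range hg (shiftMap_injective H x y)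

lemma sum_entry [Fintype (G ⧸ H)] (x : G ⧸ H) (h : H) (φ : G → R) (a : MonoidAlgebra R G) :
    ∑ y : G ⧸ H, ev (fun k : H => φ (y.out * ((k⁻¹ * h : H) : G))) (entry H x y a) =
      ev (fun g => φ (g⁻¹ * (x.out * h))) a := by
  classical
  induction a using MonoidAlgebra.induction_linear with
  | zero => simp
  | add a b ha hb =>
    rw [map_add, ← ha, ← hb, ← Finset.sum_add_distrib]
    refine Finset.sum_congr rfl fun y _ => ?_
    rw [map_add, map_add]
  | single g r =>
    set y0 : G ⧸ H := QuotientGroup.mk (g⁻¹ * x.out) with hy0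
    obtain ⟨n, hn⟩ := QuotientGroup.mk_out_eq_mul H (g⁻¹ * x.out)
    rw [← hy0] at hn
    rw [Finset.sum_eq_single y0]
    · have hg : g = shiftMap H x y0 n := by
        unfold shiftMap
        rw [hn]
        group
      have e1 : entry H x y0 (MonoidAlgebra.single g r) = MonoidAlgebra.single n r := by
        conv_lhs => rw [hg]
        exact entry_single_self H x y0 n r
      rw [e1, ev_single, ev_single]
      congr 2
      rw [hn]
      push_cast
      group
    · intro y _ hy
      rw [entry_single_of_ne, map_zero]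
      rintro ⟨k, hk⟩
      apply hy
      rw [hy0, ← QuotientGroup.out_eq' y]
      apply QuotientGroup.eq.2
      unfold shiftMap at hk
      have : y.out⁻¹ * (g⁻¹ * x.out) = (k : G)⁻¹ := by
        rw [← hk]
        group
      rw [this]
      exact H.inv_mem k.2
    · intro hh
      exact absurd (Finset.mem_univ _) hh

noncomputable def bigMat (A : Matrix ι ι (MonoidAlgebra R G)) :
    Matrix (ι × (G ⧸ H)) (ι × (G ⧸ H)) (MonoidAlgebra R H) :=
  Matrix.of fun p q => entry H p.2 q.2 (A p.1 q.1)

noncomputable def resFun (f : G → ι → R) : H → (ι × (G ⧸ H)) → R := fun h p => f (p.2.out * h) p.1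

lemma act_bigMat [Fintype (G ⧸ H)] (A : Matrix ι ι (MonoidAlgebra R G)) (f : G → ι → R) :
    act (bigMat H A) (resFun H f) = resFun H (act A f) := by
  funext h p
  rw [act_eq]
  simp only [resFun]
  rw [act_eq, Fintype.sum_prod_type]
  refine Finset.sum_congr rfl fun j _ => ?_
  exact sum_entry H p.2 h (fun g => f g j) (A p.1 j)

lemma resFun_surj (F : H → (ι × (G ⧸ H)) → R) : ∃ f : G → ι → R, resFun H f = F := by
  refine ⟨fun g i => F ⟨(QuotientGroup.mk g : G ⧸ H).out⁻¹ * g, ?_⟩ (i, QuotientGroup.mk g), ?_⟩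
  · apply QuotientGroup.eq.1
    exact QuotientGroup.out_eq' _
  · funext h p
    obtain ⟨i, x⟩ := p
    have hx : (QuotientGroup.mk (x.out * (h : G)) : G ⧸ H) = x := by
      conv_rhs => rw [← QuotientGroup.out_eq' x]
      apply QuotientGroup.eq.2
      rw [mul_inv_rev, inv_mul_cancel_right]
      exact H.inv_mem h.2
    simp only [resFun]
    have : ∀ (y : G ⧸ H) (hy : y = x) (hm : y.out⁻¹ * (x.out * (h : G)) ∈ H),
        F ⟨y.out⁻¹ * (x.out * (h : G)), hm⟩ (i, y) = F h (i, x) := by
      intro y hy hm
      subst hy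
      have e : (⟨y.out⁻¹ * (y.out * (h : G)), hm⟩ : H) = h :=
        Subtype.ext (inv_mul_cancel_left _ _)
      rw [e]
    exact this _ hx _

lemma resFun_inj (f f' : G → ι → R) (h : resFun H f = resFun H f') : f = f' := by
  funext g i
  have hm : (QuotientGroup.mk g : G ⧸ H).out⁻¹ * g ∈ H := by
    apply QuotientGroup.eq.1
    exact QuotientGroup.out_eq' _
  have := congrFun (congrFun h ⟨_, hm⟩) (i, QuotientGroup.mk g)
  simp only [resFun, mul_inv_cancel_left] at this
  exact this

theorem finIndex_dedekind [DecidableEq ι] [Finite (G ⧸ H)]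
    [IsStablyFiniteRing (MonoidAlgebra R H)]
    (A B : Matrix ι ι (MonoidAlgebra R G)) (hAB : A * B = 1) : B * A = 1 := by
  classical
  haveI := Fintype.ofFinite (G ⧸ H)
  have h1 : bigMat H A * bigMat H B = 1 := by
    refine eq_one_of_act _ fun F => ?_
    obtain ⟨f, rfl⟩ := resFun_surj H F
    rw [← act_mul, act_bigMat, act_bigMat, act_mul, hAB, act_one]
  have h2 := mul_eq_one_comm.1 h1
  refine eq_one_of_act _ fun f => ?_
  apply resFun_inj H
  rw [← act_mul, ← act_bigMat, ← act_bigMat, act_mul, h2, act_one]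

end Vale.Agent.P194
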