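import Mathlib
import Vale.Agent.P194.Conserv
import Vale.Agent.P194.Sofic
import Vale.Agent.P194.Surj

open Finset

namespace Vale.Agent.P194

section localemb

variable {G H R ι : Type*} [Group G] [Group H] [Ring R] [Fintype ι]

lemma mapDomain_mul_local (φ : G → H) (a b : MonoidAlgebra R G)
    (h : ∀ x ∈ a.coeff.support, ∀ y ∈ b.coeff.support, φ (x * y) = φ x * φ y) :
    MonoidAlgebra.mapDomain φ (a * b) =
      MonoidAlgebra.mapDomain φ a * MonoidAlgebra.mapDomain φ b := by
  have e1 : ∀ c : MonoidAlgebra R G, MonoidAlgebra.mapDomain φ c =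
      c.coeff.sum fun g r => MonoidAlgebra.single (φ g) r := by
    intro c
    ext y
    rw [MonoidAlgebra.coeff_finsuppSum]
    simp only [MonoidAlgebra.coeff_mapDomain, Finsupp.mapDomain, MonoidAlgebra.coeff_single]
  rw [MonoidAlgebra.mul_def, MonoidAlgebra.mapDomain_sum, e1 a, e1 b, Finsupp.sum_mul]
  refine Finsupp.sum_congr fun x hx => ?_
  rw [MonoidAlgebra.mapDomain_sum, Finsupp.mul_sum]
  refine Finsupp.sum_congr fun y hy => ?_
  rw [MonoidAlgebra.mapDomain_single, MonoidAlgebra.single_mul_single, h x hx y hy]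

end localemb

universe u v w

theorem local_dedekind {G : Type u} {R : Type v} {ι : Type w} [Group G] [Ring R] [Fintype ι]
    [DecidableEq ι]
    (hloc : ∀ F : Finset G, ∃ (H : Type u) (_ : Group H) (φ : G → H), Set.InjOn φ F ∧
      (∀ x ∈ F, ∀ y ∈ F, φ (x * y) = φ x * φ y) ∧
      (∀ A B : Matrix ι ι (MonoidAlgebra R H), A * B = 1 → B * A = 1))
    (A B : Matrix ι ι (MonoidAlgebra R G)) (hAB : A * B = 1) : B * A = 1 := by
  classical
  let F : Finset G := insert 1 (suppA A ∪ suppA B ∪ suppA (B * A))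
  obtain ⟨H, hgr, φ, hinj, hmul, hH⟩ := hloc F
  have hA : ∀ i j, ∀ g ∈ (A i j).coeff.support, g ∈ F := fun i j g hg =>
    Finset.mem_insert_of_mem (Finset.mem_union_left _ (Finset.mem_union_left _ (mem_suppA hg)))
  have hB : ∀ i j, ∀ g ∈ (B i j).coeff.support, g ∈ F := fun i j g hg =>
    Finset.mem_insert_of_mem (Finset.mem_union_left _ (Finset.mem_union_right _ (mem_suppA hg)))
  have hBA : ∀ i j, ∀ g ∈ ((B * A) i j).coeff.support, g ∈ F := fun i j g hg =>
    Finset.mem_insert_of_mem (Finset.mem_union_right _ (mem_suppA hg))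
  have h1F : (1 : G) ∈ F := Finset.mem_insert_self _ _
  have hφ1 : φ 1 = 1 := by
    have := hmul 1 h1F 1 h1F
    rw [mul_one] at this
    exact (mul_eq_left.1 this.symm)
  let Φ : MonoidAlgebra R G →+ MonoidAlgebra R H :=
    { toFun := MonoidAlgebra.mapDomain φ
      map_zero' := MonoidAlgebra.mapDomain_zero φ
      map_add' := MonoidAlgebra.mapDomain_add φ }
  have hmulM : ∀ C D : Matrix ι ι (MonoidAlgebra R G),
      (∀ i j, ∀ g ∈ (C i j).coeff.support, g ∈ F) →
      (∀ i j, ∀ g ∈ (D i j).coeff.support, g ∈ F) →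
      (C * D).map Φ = C.map Φ * D.map Φ := by
    intro C D hC hD
    refine Matrix.ext fun i k => ?_
    rw [Matrix.map_apply, Matrix.mul_apply, Matrix.mul_apply, map_sum]
    refine Finset.sum_congr rfl fun j _ => ?_
    exact mapDomain_mul_local φ _ _ fun x hx y hy => hmul x (hC i j x hx) y (hD j k y hy)
  have hone : (1 : Matrix ι ι (MonoidAlgebra R G)).map Φ = 1 := by
    refine Matrix.map_one Φ (map_zero Φ) ?_
    change MonoidAlgebra.mapDomain φ 1 = 1
    rw [MonoidAlgebra.one_def, MonoidAlgebra.mapDomain_single, hφ1, MonoidAlgebra.one_def]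
  have h1 : A.map Φ * B.map Φ = 1 := by
    rw [← hmulM A B hA hB, hAB, hone]
  have h2 := hH _ _ h1
  rw [← hmulM B A hB hA, ← hone] at h2
  refine Matrix.ext fun i j => ?_
  have h3 : MonoidAlgebra.mapDomain φ ((B * A) i j) =
      MonoidAlgebra.mapDomain φ ((1 : Matrix ι ι (MonoidAlgebra R G)) i j) :=
    congrFun (congrFun h2 i) j
  have h4 := congrArg MonoidAlgebra.coeff h3
  rw [MonoidAlgebra.coeff_mapDomain, MonoidAlgebra.coeff_mapDomain] at h4
  have h5 := Finsupp.mapDomain_injOn (M := R) (F : Set G) hinj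
    (x₁ := ((B * A) i j).coeff) (x₂ := ((1 : Matrix ι ι (MonoidAlgebra R G)) i j).coeff)
    (fun g hg => hBA i j g hg) (by
      intro g hg
      by_cases hij : i = j
      · subst hij
        rw [Matrix.one_apply_eq, MonoidAlgebra.one_def, MonoidAlgebra.coeff_single] at hg
        have := Finsupp.support_single_subset hg
        rw [Finset.mem_singleton] at this
        rw [this]
        exact h1F
      · rw [Matrix.one_apply_ne hij, MonoidAlgebra.coeff_zero] at hg
        simp at hg) h4
  exact MonoidAlgebra.coeff_inj.1 h5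

end Vale.Agent.P194
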