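import Mathlib
import Vale.Agent.P194.Conserv

open Finset

namespace Vale.Agent.P194

variable {G R ι : Type*} [Group G] [Ring R] [Fintype ι]

lemma good_of_quot (N : Subgroup G) [N.Normal] (A : Matrix ι ι (MonoidAlgebra R G))
    (hA : ∀ v : ι → MonoidAlgebra R (G ⧸ N),
      (A.map (MonoidAlgebra.mapDomainRingHom R (QuotientGroup.mk' N))).mulVec v = 0 → v = 0)
    (S : Finset G) : Good A S N := by
  classical
  intro f hinv hsupp hact
  have hout : ∀ (y : G), f ((QuotientGroup.mk y : G ⧸ N).out) = f y := by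
    intro y
    obtain ⟨n, hn⟩ := QuotientGroup.mk_out_eq_mul N y
    rw [hn, hinv y n n.2]
  have hs : ∀ (j : ι) (q : G ⧸ N), f q.out j ≠ 0 →
      q ∈ S.image (QuotientGroup.mk : G → G ⧸ N) := by
    intro j q hq
    have hne : f q.out ≠ 0 := fun h0 => hq (by rw [h0]; rfl)
    obtain ⟨s, hs, hsN⟩ := hsupp _ hne
    refine Finset.mem_image.2 ⟨s, hs, ?_⟩
    rw [← QuotientGroup.out_eq' q]
    exact QuotientGroup.eq.2 hsN
  let w : ι → MonoidAlgebra R (G ⧸ N) := fun j =>
    MonoidAlgebra.ofCoeff (Finsupp.onFinset (S.image (QuotientGroup.mk : G → G ⧸ N))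
      (fun q => f q.out j) (hs j))
  have hw : ∀ j (y : G), (w j).coeff (QuotientGroup.mk y : G ⧸ N) = f y j := by
    intro j y
    change f ((QuotientGroup.mk y : G ⧸ N).out) j = f y j
    rw [hout]
  have hzero : (A.map (MonoidAlgebra.mapDomainRingHom R (QuotientGroup.mk' N))).mulVec w = 0 := by
    funext i
    ext q
    obtain ⟨x, rfl⟩ := QuotientGroup.mk_surjective q
    have h1 := congrFun (congrFun hact x) i
    simp only [act, Pi.zero_apply] at h1
    simp only [Matrix.mulVec, dotProduct, Matrix.map_apply, MonoidAlgebra.coeff_sum,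
      Finsupp.coe_finsetSum, Finset.sum_apply, Pi.zero_apply, MonoidAlgebra.coeff_zero,
      Finsupp.coe_zero]
    rw [← h1]
    refine Finset.sum_congr rfl fun j _ => ?_
    rw [MonoidAlgebra.coeff_mul_apply_left]
    have e : ((MonoidAlgebra.mapDomainRingHom R (QuotientGroup.mk' N)) (A i j)).coeff =
        Finsupp.mapDomain (QuotientGroup.mk' N) (A i j).coeff := rfl
    rw [e, Finsupp.sum_mapDomain_index]
    · refine Finsupp.sum_congr fun g _ => ?_
      have e2 : (QuotientGroup.mk' N g)⁻¹ * (QuotientGroup.mk x : G ⧸ N) =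
          QuotientGroup.mk (g⁻¹ * x) := rfl
      rw [e2, hw]
    · intro b; simp
    · intro b m1 m2; rw [add_mul]
  have hw0 := hA w hzero
  funext x j
  rw [← hw j x, hw0]
  rfl

theorem conservative {p : ℕ} [Fact p.Prime] (hR : ∀ r : R, (p : ℕ) • r = 0)
    (N : Subgroup G) [N.Normal]
    (hN : ∀ H : Subgroup G, H ≤ N → H.FG → H ≠ ⊥ → ∃ χ : H →* Multiplicative (ZMod p), χ ≠ 1)
    (A : Matrix ι ι (MonoidAlgebra R G))
    (hA : ∀ v : ι → MonoidAlgebra R (G ⧸ N),
      (A.map (MonoidAlgebra.mapDomainRingHom R (QuotientGroup.mk' N))).mulVec v = 0 → v = 0)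
    (v : ι → MonoidAlgebra R G) (hv : A.mulVec v = 0) : v = 0 := by
  classical
  let S : Finset G := Finset.univ.biUnion fun j => (v j).coeff.support
  have hgood := good_bot hR A S N hN (good_of_quot N A hA S)
  have h0 := hgood (fun x j => (v j).coeff x) ?_ ?_ ?_
  · funext j
    ext x
    exact congrFun (congrFun h0 x) j
  · intro g h hh
    rw [Subgroup.mem_bot.1 hh, mul_one]
  · intro g hg
    have : ∃ j, (v j).coeff g ≠ 0 := by
      by_contra hcon
      push Not at hcon
      exact hg (funext hcon)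
    obtain ⟨j, hj⟩ := this
    refine ⟨g, Finset.mem_biUnion.2 ⟨j, Finset.mem_univ _, Finsupp.mem_support_iff.2 hj⟩, ?_⟩
    simp
  · funext x i
    have h1 := congrArg (fun w : MonoidAlgebra R G => w.coeff x) (congrFun hv i)
    simp only [Matrix.mulVec, dotProduct, MonoidAlgebra.coeff_sum,
      Finsupp.coe_finsetSum, Finset.sum_apply, Pi.zero_apply, MonoidAlgebra.coeff_zero,
      Finsupp.coe_zero] at h1
    simp only [act, Pi.zero_apply]
    rw [← h1]
    refine Finset.sum_congr rfl fun j _ => ?_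
    rw [MonoidAlgebra.coeff_mul_apply_left]

theorem dedekind_matrix {p : ℕ} [Fact p.Prime] (hR : ∀ r : R, (p : ℕ) • r = 0)
    [DecidableEq ι] (N : Subgroup G) [N.Normal]
    (hN : ∀ H : Subgroup G, H ≤ N → H.FG → H ≠ ⊥ → ∃ χ : H →* Multiplicative (ZMod p), χ ≠ 1)
    (hQ : ∀ A B : Matrix ι ι (MonoidAlgebra R (G ⧸ N)), A * B = 1 → B * A = 1)
    (A B : Matrix ι ι (MonoidAlgebra R G)) (hAB : A * B = 1) : B * A = 1 := by
  classical
  let φ := MonoidAlgebra.mapDomainRingHom R (QuotientGroup.mk' N)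
  have h1 : A.map φ * B.map φ = 1 := by
    rw [← Matrix.map_mul, hAB]
    exact Matrix.map_one φ (map_zero φ) (map_one φ)
  have h2 := hQ _ _ h1
  have hinj : ∀ v : ι → MonoidAlgebra R (G ⧸ N), (A.map φ).mulVec v = 0 → v = 0 := by
    intro v hv
    have : (B.map φ).mulVec ((A.map φ).mulVec v) = v := by
      rw [Matrix.mulVec_mulVec, h2, Matrix.one_mulVec]
    rw [← this, hv, Matrix.mulVec_zero]
  have hcons := conservative hR N hN A hinj
  have h3 : A * (B * A - 1) = 0 := by
    rw [mul_sub, ← mul_assoc, hAB, one_mul, mul_one, sub_self]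
  have h4 : B * A - 1 = 0 := by
    refine Matrix.ext fun i j => ?_
    have h5 := hcons (fun k => (B * A - 1) k j) (by
      funext k
      have := congrFun (congrFun h3 k) j
      exact this)
    exact congrFun h5 i
  exact sub_eq_zero.1 h4

end Vale.Agent.P194
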