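import Mathlib

open Finset

namespace Vale.Agent.P194

def DisjFam {X Γ : Type*} (S : Finset Γ) (t : Γ → Equiv.Perm X) (Y : Finset X) : Prop :=
  ∀ x ∈ Y, ∀ x' ∈ Y, ∀ g ∈ S, ∀ g' ∈ S, t g x = t g' x' → x = x'

lemma exists_disjoint_family {X : Type*} {Γ : Type*} (S : Finset Γ)
    (hS : S.Nonempty) (good : Finset X) (t : Γ → Equiv.Perm X) :
    ∃ Y ⊆ good, DisjFam S t Y ∧ good.card ≤ Y.card * (S.card * S.card) := by
  classical
  let 𝒴 := good.powerset.filter (DisjFam S t)
  have h𝒴 : 𝒴.Nonempty := ⟨∅, Finset.mem_filter.2 ⟨Finset.empty_mem_powerset _, by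
    intro x hx
    exact absurd hx (Finset.notMem_empty x)⟩⟩
  obtain ⟨Y, hY, hmax⟩ := Finset.exists_max_image 𝒴 Finset.card h𝒴
  obtain ⟨hYs, hYd⟩ := Finset.mem_filter.1 hY
  refine ⟨Y, Finset.mem_powerset.1 hYs, hYd, ?_⟩
  have hcov : good ⊆ (Y ×ˢ (S ×ˢ S)).image fun q => (t q.2.1).symm (t q.2.2 q.1) := by
    intro x hx
    have hex : ∃ x' ∈ Y, ∃ g ∈ S, ∃ g' ∈ S, t g x = t g' x' := by
      by_contra hcon
      push Not at hcon
      have hxY : x ∉ Y := by
        intro hxY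
        obtain ⟨g, hg⟩ := hS
        exact hcon x hxY g hg g hg rfl
      have hins : insert x Y ∈ 𝒴 := by
        refine Finset.mem_filter.2 ⟨Finset.mem_powerset.2
          (Finset.insert_subset hx (Finset.mem_powerset.1 hYs)), ?_⟩
        intro a ha b hb g hg g' hg' hab
        rcases Finset.mem_insert.1 ha with hax | haY
        · rcases Finset.mem_insert.1 hb with hbx | hbY
          · rw [hax, hbx]
          · exact absurd (hax ▸ hab) (hcon b hbY g hg g' hg')
        · rcases Finset.mem_insert.1 hb with hbx | hbY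
          · exact absurd (hbx ▸ hab.symm) (hcon a haY g' hg' g hg)
          · exact hYd a haY b hbY g hg g' hg' hab
      have := hmax _ hins
      rw [Finset.card_insert_of_notMem hxY] at this
      omega
    obtain ⟨x', hx', g, hg, g', hg', hgg⟩ := hex
    refine Finset.mem_image.2 ⟨(x', g, g'), ?_, ?_⟩
    · simp only [Finset.mem_product]
      exact ⟨hx', hg, hg'⟩
    · simp only
      rw [← hgg, Equiv.symm_apply_apply]
  refine (Finset.card_le_card hcov).trans (Finset.card_image_le.trans ?_)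
  rw [Finset.card_product, Finset.card_product]

variable {G : Type*} [Group G]

def IsBad {n : ℕ} (F : Finset G) (σ : G → Equiv.Perm (Fin n)) (x : Fin n) : Prop :=
  ∃ a ∈ F, ∃ b ∈ F, σ (a * b) x ≠ σ a (σ b x) ∨ (a ≠ 1 ∧ σ a (σ b x) = σ b x)

lemma bad_card {n : ℕ} (F : Finset G) (σ : G → Equiv.Perm (Fin n)) (c : ℝ) (hc : 0 ≤ c)
    (hmul : ∀ g ∈ F, ∀ h ∈ F,
      ((Finset.univ.filter fun x => σ (g * h) x ≠ σ g (σ h x)).card : ℝ) ≤ c)
    (hfix : ∀ g ∈ F, g ≠ 1 → ((Finset.univ.filter fun x => σ g x = x).card : ℝ) ≤ c)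
    (Bad : Finset (Fin n)) (hBad : ∀ x ∈ Bad, IsBad F σ x) :
    (Bad.card : ℝ) ≤ (F.card * F.card * 2 : ℕ) * c := by
  classical
  let U1 : G × G → Finset (Fin n) := fun q =>
    Finset.univ.filter fun x => σ (q.1 * q.2) x ≠ σ q.1 (σ q.2 x)
  let U2 : G × G → Finset (Fin n) := fun q =>
    if q.1 = 1 then ∅ else Finset.univ.filter fun x => σ q.1 (σ q.2 x) = σ q.2 x
  have hsub : Bad ⊆ (F ×ˢ F).biUnion fun q => U1 q ∪ U2 q := by
    intro x hx
    obtain ⟨a, ha, b, hb, hor⟩ := hBad x hx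
    refine Finset.mem_biUnion.2 ⟨(a, b), Finset.mem_product.2 ⟨ha, hb⟩, ?_⟩
    rcases hor with h | ⟨h1, h2⟩
    · exact Finset.mem_union_left _ (Finset.mem_filter.2 ⟨Finset.mem_univ _, h⟩)
    · refine Finset.mem_union_right _ ?_
      change x ∈ (if a = 1 then (∅ : Finset (Fin n)) else _)
      rw [if_neg h1]
      exact Finset.mem_filter.2 ⟨Finset.mem_univ _, h2⟩
  have h1 : ∀ q ∈ F ×ˢ F, ((U1 q).card : ℝ) ≤ c := by
    intro q hq
    obtain ⟨ha, hb⟩ := Finset.mem_product.1 hq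
    exact hmul q.1 ha q.2 hb
  have h2 : ∀ q ∈ F ×ˢ F, ((U2 q).card : ℝ) ≤ c := by
    intro q hq
    obtain ⟨ha, hb⟩ := Finset.mem_product.1 hq
    by_cases h1 : q.1 = 1
    · have : U2 q = ∅ := if_pos h1
      rw [this]
      simpa using hc
    · have e : U2 q = Finset.univ.filter fun x => σ q.1 (σ q.2 x) = σ q.2 x := if_neg h1
      refine le_trans ?_ (hfix q.1 ha h1)
      rw [e]
      have : (Finset.univ.filter fun x => σ q.1 (σ q.2 x) = σ q.2 x).card ≤
          (Finset.univ.filter fun x => σ q.1 x = x).card := by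
        refine Finset.card_le_card_of_injOn (fun x => σ q.2 x) ?_ ?_
        · intro x hx
          exact Finset.mem_coe.2 (Finset.mem_filter.2
            ⟨Finset.mem_univ _, (Finset.mem_filter.1 (Finset.mem_coe.1 hx)).2⟩)
        · intro x _ y _ hxy
          exact (σ q.2).injective hxy
      exact_mod_cast this
  have hnat : Bad.card ≤ ∑ q ∈ F ×ˢ F, ((U1 q).card + (U2 q).card) := by
    refine (Finset.card_le_card hsub).trans (Finset.card_biUnion_le.trans ?_)
    exact Finset.sum_le_sum fun q _ => Finset.card_union_le _ _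
  have hreal : (Bad.card : ℝ) ≤ ∑ q ∈ F ×ˢ F, (((U1 q).card : ℝ) + ((U2 q).card : ℝ)) := by
    exact_mod_cast hnat
  refine hreal.trans ((Finset.sum_le_sum (g := fun _ => c + c) fun q hq =>
    add_le_add (h1 q hq) (h2 q hq)).trans ?_)
  rw [Finset.sum_const, Finset.card_product, nsmul_eq_mul]
  push_cast
  nlinarith

end Vale.Agent.P194
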