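import Mathlib
import Vale.Agent.P194.Conserv
import Vale.Agent.P194.Sofic
import Vale.Agent.P194.SoficCount

open Finset

namespace Vale.Agent.P194

variable {G K : Type*} [Group G] [Field K] {ι : Type*} [Fintype ι]

lemma not_bad_mul {n : ℕ} {F : Finset G} {σ : G → Equiv.Perm (Fin n)} {x : Fin n}
    (hx : ¬ IsBad F σ x) : ∀ a ∈ F, ∀ b ∈ F, σ (a * b) x = σ a (σ b x) := by
  intro a ha b hb
  by_contra hcon
  exact hx ⟨a, ha, b, hb, Or.inl hcon⟩

lemma not_bad_fix {n : ℕ} {F : Finset G} {σ : G → Equiv.Perm (Fin n)} {x : Fin n}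
    (hx : ¬ IsBad F σ x) : ∀ a ∈ F, ∀ b ∈ F, a ≠ 1 → σ a (σ b x) ≠ σ b x := by
  intro a ha b hb ha1 hcon
  exact hx ⟨a, ha, b, hb, Or.inr ⟨ha1, hcon⟩⟩

lemma not_bad_one {n : ℕ} {F : Finset G} {σ : G → Equiv.Perm (Fin n)} {x : Fin n}
    (hx : ¬ IsBad F σ x) (h1 : (1 : G) ∈ F) : σ 1 x = x := by
  have := not_bad_mul hx 1 h1 1 h1
  rw [one_mul] at this
  exact ((σ 1).injective this).symm

lemma key_surj {n : ℕ} (F0 F : Finset G) (σ : G → Equiv.Perm (Fin n)) (e : MonoidAlgebra K G)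
    (g0 : G) (hg0 : g0 ∈ e.coeff.support)
    (hS0 : ∀ g ∈ e.coeff.support, g⁻¹ ∈ F0) (hF0F : ∀ g ∈ F0, g ∈ F)
    (hFq : ∀ a ∈ F0, ∀ b ∈ F0, a * b⁻¹ ∈ F)
    (Y : Finset (Fin n)) (hYdisj : DisjFam e.coeff.support (fun g => σ g⁻¹) Y)
    (hYB : ∀ x ∈ Y, ¬ IsBad F σ x) (v : Y → K) :
    ∃ φ : Fin n → K, ∀ x : Y, ev (fun g => φ (σ g⁻¹ x)) e = v x := by
  classical
  let φ : Fin n → K := fun z =>
    if h : (σ g0⁻¹).symm z ∈ Y then v ⟨_, h⟩ / e.coeff g0 else 0
  refine ⟨φ, ?_⟩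
  rintro ⟨x, hx⟩
  have hxB := hYB x hx
  rw [ev_apply, Finsupp.sum, Finset.sum_eq_single g0]
  · have hmem : (σ g0⁻¹).symm (σ g0⁻¹ x) ∈ Y := by
      rw [Equiv.symm_apply_apply]
      exact hx
    have hfx : φ (σ g0⁻¹ x) = v ⟨x, hx⟩ / e.coeff g0 := by
      simp only [φ]
      rw [dif_pos hmem]
      congr 2
      exact Subtype.ext (Equiv.symm_apply_apply _ _)
    rw [hfx]
    have hne0 : e.coeff g0 ≠ 0 := Finsupp.mem_support_iff.1 hg0
    field_simp
  · intro g hg hgne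
    have hfz : φ (σ g⁻¹ x) = 0 := by
      simp only [φ]
      rw [dif_neg]
      intro hmem
      set x' := (σ g0⁻¹).symm (σ g⁻¹ x) with hx'
      have hx'' : σ g0⁻¹ x' = σ g⁻¹ x := by
        rw [hx', Equiv.apply_symm_apply]
      have hxx : x' = x := hYdisj x' hmem x hx g0 hg0 g hg hx''
      rw [hxx] at hx''
      have hm := not_bad_mul hxB (g0⁻¹ * (g⁻¹)⁻¹) (hFq _ (hS0 g0 hg0) _ (hS0 g hg)) g⁻¹
        (hF0F _ (hS0 g hg))
      rw [inv_mul_cancel_right] at hm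
      rw [hm] at hx''
      refine not_bad_fix hxB (g0⁻¹ * (g⁻¹)⁻¹) (hFq _ (hS0 g0 hg0) _ (hS0 g hg)) g⁻¹
        (hF0F _ (hS0 g hg)) ?_ hx''
      intro h1
      apply hgne
      rw [inv_inv, inv_mul_eq_one] at h1
      exact h1.symm
    rw [hfz, mul_zero]
  · intro h
    exact absurd hg0 h

lemma approx_bound [DecidableEq ι] {n : ℕ} (F0 F : Finset G) (σ : G → Equiv.Perm (Fin n))
    (A B : Matrix ι ι (MonoidAlgebra K G)) (hAB : A * B = 1) (i0 j0 : ι)
    (g0 : G) (hg0 : g0 ∈ ((B * A - 1) i0 j0).coeff.support)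
    (hA0 : ∀ i j, ∀ g ∈ (A i j).coeff.support, g⁻¹ ∈ F0)
    (hB0 : ∀ i j, ∀ g ∈ (B i j).coeff.support, g⁻¹ ∈ F0)
    (hS0 : ∀ g ∈ ((B * A - 1) i0 j0).coeff.support, g⁻¹ ∈ F0) (h10 : (1 : G) ∈ F0)
    (hF0F : ∀ g ∈ F0, g ∈ F) (hFq : ∀ a ∈ F0, ∀ b ∈ F0, a * b⁻¹ ∈ F)
    (Bad : Finset (Fin n)) (hBad : ∀ x, x ∉ Bad → ¬ IsBad F σ x)
    (Y : Finset (Fin n))
    (hYdisj : DisjFam ((B * A - 1) i0 j0).coeff.support (fun g => σ g⁻¹) Y)
    (hYB : ∀ x ∈ Y, x ∉ Bad) :
    Y.card ≤ Bad.card * Fintype.card ι := by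
  classical
  refine card_le_of_approx (K := K) (sact σ A) (sact σ B) Bad Y i0 ?_ ?_
  · intro f x hx
    have hb := hBad x hx
    rw [sact_mul, hAB, sact_one σ f x (not_bad_one hb (hF0F 1 h10))]
    intro i j k g hg h hh
    exact not_bad_mul hb _ (hF0F _ (hB0 j k h hh)) _ (hF0F _ (hA0 i j g hg))
  · intro v
    obtain ⟨φ, hφ⟩ := key_surj F0 F σ ((B * A - 1) i0 j0) g0 hg0 hS0 hF0F hFq Y hYdisj
      (fun x hx => hBad x (hYB x hx)) v
    refine ⟨fun z j => if j = j0 then φ z else 0, ?_⟩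
    intro x
    have hxB := hBad x (hYB x x.2)
    set f : Fin n → ι → K := fun z j => if j = j0 then φ z else 0 with hf
    have h1 : sact σ B (sact σ A f) x = sact σ (B * A) f x := by
      refine sact_mul σ B A f x ?_
      intro i j k g hg h hh
      exact not_bad_mul hxB _ (hF0F _ (hA0 j k h hh)) _ (hF0F _ (hB0 i j g hg))
    have h2 : f x i0 = sact σ (1 : Matrix ι ι (MonoidAlgebra K G)) f x i0 := by
      rw [sact_one σ f x (not_bad_one hxB (hF0F 1 h10))]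
    rw [h1, h2, sact_apply, sact_apply, ← Finset.sum_sub_distrib]
    have h3 : ∀ j, ev (fun g => f (σ g⁻¹ x) j) ((B * A) i0 j) -
        ev (fun g => f (σ g⁻¹ x) j) ((1 : Matrix ι ι (MonoidAlgebra K G)) i0 j) =
        ev (fun g => f (σ g⁻¹ x) j) ((B * A - 1) i0 j) := by
      intro j
      rw [← map_sub]
      rfl
    simp only [h3]
    rw [Finset.sum_eq_single j0]
    · rw [← hφ x]
      simp only [hf, if_true]
    · intro j _ hj
      have : ∀ g, f (σ g⁻¹ x) j = 0 := by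
        intro g
        simp only [hf, if_neg hj]
      rw [ev_apply]
      simp [this]
    · intro h
      exact absurd (Finset.mem_univ _) h

theorem sofic_dedekind (hG : IsSofic G) [DecidableEq ι]
    (A B : Matrix ι ι (MonoidAlgebra K G)) (hAB : A * B = 1) : B * A = 1 := by
  classical
  by_contra hne
  have hE : ∃ i0 j0, (B * A - 1) i0 j0 ≠ 0 := by
    by_contra hcon
    push Not at hcon
    apply hne
    rw [← sub_eq_zero]
    exact Matrix.ext hcon
  obtain ⟨i0, j0, he⟩ := hE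
  have hesupp : ((B * A - 1) i0 j0).coeff.support.Nonempty := by
    rw [Finsupp.support_nonempty_iff]
    intro h0
    exact he (MonoidAlgebra.coeff_eq_zero.1 h0)
  obtain ⟨g0, hg0⟩ := hesupp
  set Se := ((B * A - 1) i0 j0).coeff.support with hSe
  let F0 : Finset G := insert 1 ((suppA A ∪ suppA B ∪ Se).image fun g => g⁻¹)
  have hA0 : ∀ i j, ∀ g ∈ (A i j).coeff.support, g⁻¹ ∈ F0 := fun i j g hg =>
    Finset.mem_insert_of_mem (Finset.mem_image.2 ⟨g, Finset.mem_union_left _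
      (Finset.mem_union_left _ (mem_suppA hg)), rfl⟩)
  have hB0 : ∀ i j, ∀ g ∈ (B i j).coeff.support, g⁻¹ ∈ F0 := fun i j g hg =>
    Finset.mem_insert_of_mem (Finset.mem_image.2 ⟨g, Finset.mem_union_left _
      (Finset.mem_union_right _ (mem_suppA hg)), rfl⟩)
  have hS0 : ∀ g ∈ Se, g⁻¹ ∈ F0 := fun g hg =>
    Finset.mem_insert_of_mem (Finset.mem_image.2 ⟨g, Finset.mem_union_right _ hg, rfl⟩)
  have h10 : (1 : G) ∈ F0 := Finset.mem_insert_self _ _
  let F : Finset G := F0 ∪ (F0 ×ˢ F0).image fun q => q.1 * q.2⁻¹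
  have hF0F : ∀ g ∈ F0, g ∈ F := fun g hg => Finset.mem_union_left _ hg
  have hFq : ∀ a ∈ F0, ∀ b ∈ F0, a * b⁻¹ ∈ F := fun a ha b hb =>
    Finset.mem_union_right _ (Finset.mem_image.2 ⟨(a, b), Finset.mem_product.2 ⟨ha, hb⟩, rfl⟩)
  let C : ℕ := Se.card * Se.card * Fintype.card ι + 1
  let D : ℕ := C * (F.card * F.card * 2) + 1
  have hDpos : (0 : ℝ) < D := by
    have : 0 < D := Nat.succ_pos _
    exact_mod_cast this
  obtain ⟨n, σ, hn, hmul, hfix⟩ := hG F (1 / D) (by positivity)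
  let Bad : Finset (Fin n) := Finset.univ.filter (IsBad F σ)
  have hBad : ∀ x, x ∉ Bad → ¬ IsBad F σ x := fun x hx h =>
    hx (Finset.mem_filter.2 ⟨Finset.mem_univ _, h⟩)
  have hBadcard : (Bad.card : ℝ) ≤ (F.card * F.card * 2 : ℕ) * (1 / D * n) :=
    bad_card F σ _ (by positivity) hmul hfix Bad (fun x hx => (Finset.mem_filter.1 hx).2)
  let good : Finset (Fin n) := Finset.univ.filter fun x => x ∉ Bad
  obtain ⟨Y, hYgood, hYdisj, hYcard⟩ :=
    exists_disjoint_family Se ⟨g0, hg0⟩ good (fun g => σ g⁻¹)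
  have hYB : ∀ x ∈ Y, x ∉ Bad := fun x hx => (Finset.mem_filter.1 (hYgood hx)).2
  have hYle : Y.card ≤ Bad.card * Fintype.card ι :=
    approx_bound F0 F σ A B hAB i0 j0 g0 hg0 hA0 hB0 hS0 h10 hF0F hFq Bad hBad Y hYdisj hYB
  have hn_eq : n = good.card + Bad.card := by
    have h1 := Finset.card_filter_add_card_filter_not (s := (Finset.univ : Finset (Fin n)))
      (fun x => x ∉ Bad)
    have h2 : (Finset.univ.filter fun x => ¬ (x ∉ Bad)) = Bad := by
      ext x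
      simp
    rw [h2, Finset.card_univ, Fintype.card_fin] at h1
    exact h1.symm
  have hnat : n ≤ C * Bad.card := by
    have h1 : good.card ≤ (Bad.card * Fintype.card ι) * (Se.card * Se.card) :=
      hYcard.trans (Nat.mul_le_mul_right _ hYle)
    calc n = good.card + Bad.card := hn_eq
      _ ≤ (Bad.card * Fintype.card ι) * (Se.card * Se.card) + Bad.card := by omega
      _ = C * Bad.card := by simp only [C]; ring
  have hreal : (n : ℝ) ≤ C * Bad.card := by exact_mod_cast hnat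
  have hnpos : (0 : ℝ) < n := by exact_mod_cast hn
  have hlt : (n : ℝ) < n := by
    calc (n : ℝ) ≤ C * Bad.card := hreal
      _ ≤ C * ((F.card * F.card * 2 : ℕ) * (1 / D * n)) := by
          exact mul_le_mul_of_nonneg_left hBadcard (by positivity)
      _ = ((C * (F.card * F.card * 2) : ℕ) : ℝ) / D * n := by
          push_cast
          ring
      _ < 1 * n := by
          apply mul_lt_mul_of_pos_right _ hnpos
          rw [div_lt_one hDpos]
          have : C * (F.card * F.card * 2) < D := Nat.lt_succ_self _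
          exact_mod_cast this
      _ = n := one_mul _
  exact lt_irrefl _ hlt

end Vale.Agent.P194
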